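import Vale.Agent.P271.Deg.Num
import Vale.Agent.P271.Hilb.UAsym

/-!
# P271, block ASY: asymptotic, uniform form of the counting inequality

Input: the inequality of `F507.count_main` / `H207.GrSys.count`, two Hilbert functions with two
sided bounds.  Output: a lower bound `(1 - ε) * d / (e + 1) * D ^ (1 / d) * T * Hj T`, uniform in
the Hilbert functions with bounded `d, D, e, E`.
-/

set_option linter.all false

open Filter Topology Finset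

namespace Vale.Agent.P271.Deg

theorem TwoSided.low {d D : ℕ} {H : ℕ → ℕ} (h : TwoSided d D H) (t : ℕ) :
    Hilb.lowSum d D t ≤ H t := (h t).1

theorem TwoSided.up {d D : ℕ} {H : ℕ → ℕ} (h : TwoSided d D H) (t : ℕ) :
    H t ≤ Hilb.upSum d D t := (h t).2

/-- **choice of `r`** -/
theorem exists_r (D₀ r₁ : ℕ) {ε : ℝ} (hε : 0 < ε) :
    ∃ r : ℕ, 0 < r ∧ ∀ d D : ℕ, 1 ≤ d → 1 ≤ D → D ≤ D₀ → ∀ H : ℕ → ℕ, TwoSided d D H →
      0 < H r ∧
      (1 - ε) * (D : ℝ) ^ ((1 : ℝ) / d) * ((r : ℝ) + r₁) ≤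
        ((d.factorial : ℝ) ^ ((1 : ℝ) / d)) * ((H r : ℝ) ^ ((1 : ℝ) / d)) := by
  obtain ⟨r, hr⟩ := exists_nat_gt (((D₀ : ℝ) + r₁) / ε)
  refine ⟨r + D₀ + 1, by omega, ?_⟩
  intro d D hd hD hDD H hH
  have hDR : (D : ℝ) ≤ D₀ := by exact_mod_cast hDD
  have hD1 : (1 : ℝ) ≤ D := by exact_mod_cast hD
  have h1 := Hilb.lowSum_ge d D (r + D₀ + 1) (by omega)
  have h2 : (Hilb.lowSum d D (r + D₀ + 1) : ℝ) ≤ H (r + D₀ + 1) := by
    exact_mod_cast hH.low _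
  have hf : (0 : ℝ) < (d.factorial : ℝ) := by exact_mod_cast d.factorial_pos
  have h3 : (D : ℝ) * (((r + D₀ + 1 : ℕ) : ℝ) - D) ^ d ≤
      (d.factorial : ℝ) * H (r + D₀ + 1) := by
    have := (div_le_iff₀ hf).1 (h1.trans h2)
    linarith
  have hpos : (0 : ℝ) < ((r + D₀ + 1 : ℕ) : ℝ) - D := by
    push_cast
    have : (0 : ℝ) ≤ r := Nat.cast_nonneg r
    linarith
  have hHpos : (0 : ℝ) < H (r + D₀ + 1) := by
    have : (0 : ℝ) < (D : ℝ) * (((r + D₀ + 1 : ℕ) : ℝ) - D) ^ d := by positivity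
    have h4 : (0 : ℝ) < (d.factorial : ℝ) * H (r + D₀ + 1) := lt_of_lt_of_le this h3
    exact (pos_iff_pos_of_mul_pos h4).1 hf
  refine ⟨by exact_mod_cast hHpos, ?_⟩
  have hd0 : (d : ℝ) ≠ 0 := by exact_mod_cast (by omega : d ≠ 0)
  rw [← Real.mul_rpow hf.le hHpos.le]
  have h5 : ((D : ℝ) * (((r + D₀ + 1 : ℕ) : ℝ) - D) ^ d) ^ ((1 : ℝ) / d) =
      (D : ℝ) ^ ((1 : ℝ) / d) * (((r + D₀ + 1 : ℕ) : ℝ) - D) := by
    rw [Real.mul_rpow (by linarith) (by positivity), one_div, Real.pow_rpow_inv_natCast hpos.le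
      (by omega)]
  refine le_trans ?_ (Real.rpow_le_rpow (by positivity) h3 (by positivity))
  rw [h5]
  have h6 : (0 : ℝ) ≤ (D : ℝ) ^ ((1 : ℝ) / d) := by positivity
  rw [mul_comm (1 - ε), mul_assoc]
  refine mul_le_mul_of_nonneg_left ?_ h6
  rw [div_lt_iff₀ hε] at hr
  push_cast
  have h7 : (0 : ℝ) ≤ r := Nat.cast_nonneg r
  have h8 : (0 : ℝ) ≤ r₁ := Nat.cast_nonneg r₁
  have h9 : (0 : ℝ) ≤ D₀ := Nat.cast_nonneg D₀
  nlinarith

/-- telescoping: `x ^ (e+1) - (x - ρ) ^ (e+1) ≤ (e+1) ρ x ^ e` -/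
theorem pow_sub_pow_le (e : ℕ) {x ρ : ℝ} (hρ : 0 ≤ ρ) (hx : ρ ≤ x) :
    x ^ (e + 1) - (x - ρ) ^ (e + 1) ≤ (e + 1) * ρ * x ^ e := by
  have h0 : 0 ≤ x - ρ := by linarith
  have hx0 : 0 ≤ x := hρ.trans hx
  induction e with
  | zero => simp
  | succ n ih =>
    have h1 : (x - ρ) ^ (n + 1) ≤ x ^ (n + 1) := pow_le_pow_left₀ h0 (by linarith) _
    have h2 : x ^ (n + 1 + 1) - (x - ρ) ^ (n + 1 + 1) =
        x * (x ^ (n + 1) - (x - ρ) ^ (n + 1)) + ρ * (x - ρ) ^ (n + 1) := by ring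
    rw [h2]
    have h3 : x * (x ^ (n + 1) - (x - ρ) ^ (n + 1)) ≤ x * (((n : ℝ) + 1) * ρ * x ^ n) :=
      mul_le_mul_of_nonneg_left ih hx0
    have h4 : ρ * (x - ρ) ^ (n + 1) ≤ ρ * x ^ (n + 1) := mul_le_mul_of_nonneg_left h1 hρ
    calc x * (x ^ (n + 1) - (x - ρ) ^ (n + 1)) + ρ * (x - ρ) ^ (n + 1)
        ≤ x * (((n : ℝ) + 1) * ρ * x ^ n) + ρ * x ^ (n + 1) := add_le_add h3 h4
      _ = (((n + 1 : ℕ) : ℝ) + 1) * ρ * x ^ (n + 1) := by push_cast; ring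

/-- telescoped sum -/
theorem sum_pow_ge (e K : ℕ) {T ρ : ℝ} (hρ : 0 ≤ ρ) (hT : ((K : ℝ) + 1) * ρ ≤ T) :
    (T - ρ) ^ (e + 1) - (T - (K + 1) * ρ) ^ (e + 1) ≤
      (e + 1) * ρ * ∑ k ∈ range K, (T - (k + 1) * ρ) ^ e := by
  induction K with
  | zero => simp
  | succ K ih =>
    have h1 : ((K : ℝ) + 1) * ρ ≤ T := by
      push_cast at hT
      nlinarith
    have h2 := ih h1
    rw [Finset.sum_range_succ, mul_add]
    have h3 := pow_sub_pow_le e (x := T - (K + 1) * ρ) hρ (by push_cast at hT; linarith)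
    have h4 : T - (K + 1) * ρ - ρ = T - ((K + 1 : ℕ) + 1) * ρ := by push_cast; ring
    rw [h4] at h3
    linarith

/-- **sum over an arithmetic progression**, for one pair `(e, E)` -/
theorem sum_ge_one (e E₀ ρ : ℕ) (hρ : 0 < ρ) {ε : ℝ} (hε : 0 < ε) (hε1 : ε < 1) :
    ∀ᶠ T : ℕ in atTop, ∀ E : ℕ, E ≤ E₀ → ∀ H : ℕ → ℕ, TwoSided e E H →
      (1 - ε) * ((T : ℝ) * H T) ≤
        (e + 1) * (ρ * ∑ k ∈ range (T / ρ), (H (T - (k + 1) * ρ) : ℝ)) := by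
  obtain ⟨T₁, hT₁⟩ := Hilb.uniform_sums e E₀ (ε := ε / 4) (by positivity)
  set T₂ := T₁ + ρ with hT₂
  -- ratio
  have hlim : Tendsto (fun t : ℕ => ((t : ℝ) + (-(ρ : ℝ))) ^ (e + 1) / (t : ℝ) ^ (e + 1) -
      (T₂ : ℝ) ^ (e + 1) / (t : ℝ) ^ (e + 1)) atTop (𝓝 (1 - 0)) := by
    refine (Hilb.tendsto_ratio (e + 1) (-(ρ : ℝ))).sub ?_
    have h0 : Tendsto (fun t : ℕ => ((t : ℝ) ^ (e + 1))) atTop atTop :=
      (tendsto_pow_atTop (by omega)).comp tendsto_natCast_atTop_atTop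
    exact h0.const_div_atTop _
  rw [sub_zero] at hlim
  have h1 := (tendsto_order.1 hlim).1 (1 - ε / 4) (by linarith)
  filter_upwards [h1, eventually_ge_atTop (T₂ + ρ + 1)] with T hT hT' E hE H hH
  have hTpos : (0 : ℝ) < T := by exact_mod_cast (by omega : 0 < T)
  have hTe : (0 : ℝ) < (T : ℝ) ^ (e + 1) := by positivity
  rw [← sub_div, lt_div_iff₀ hTe] at hT
  have hf : (0 : ℝ) < (e.factorial : ℝ) := by exact_mod_cast e.factorial_pos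
  have hρR : (0 : ℝ) < ρ := by exact_mod_cast hρ
  -- upper bound for `H T`
  have hup : (H T : ℝ) ≤ (1 + ε / 4) * (E * (T : ℝ) ^ e / (e.factorial : ℝ)) := by
    refine le_trans ?_ (hT₁ E hE T (by omega)).2
    exact_mod_cast hH.up T
  -- the number of terms
  set K := (T - T₂) / ρ with hK
  have hKle : K * ρ ≤ T - T₂ := Nat.div_mul_le_self _ _
  have hKlt : T - T₂ < (K + 1) * ρ := by
    rw [mul_comm]
    exact Nat.lt_mul_div_succ _ hρ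
  have hKT : K ≤ T / ρ := by
    rw [Nat.le_div_iff_mul_le hρ]; omega
  have hsub : ∑ k ∈ range K, (H (T - (k + 1) * ρ) : ℝ) ≤
      ∑ k ∈ range (T / ρ), (H (T - (k + 1) * ρ) : ℝ) :=
    Finset.sum_le_sum_of_subset_of_nonneg (Finset.range_subset_range.2 hKT)
      (fun _ _ _ => Nat.cast_nonneg _)
  have hlow : ∀ k ∈ range K, (1 - ε / 4) * (E * ((T : ℝ) - (k + 1) * ρ) ^ e /
      (e.factorial : ℝ)) ≤ (H (T - (k + 1) * ρ) : ℝ) := by
    intro k hk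
    have hk' := Finset.mem_range.1 hk
    have h2 : (k + 1) * ρ ≤ T - T₂ := le_trans (Nat.mul_le_mul_right _ hk') hKle
    have h3 := (hT₁ E hE (T - (k + 1) * ρ) (by omega)).1
    have h4 : ((T - (k + 1) * ρ : ℕ) : ℝ) = (T : ℝ) - (k + 1) * ρ := by
      rw [Nat.cast_sub (by omega)]
      push_cast
      ring
    rw [h4] at h3
    refine le_trans h3 ?_
    exact_mod_cast hH.low _
  have hKR : ((K : ℝ) + 1) * ρ ≤ T := by
    have : (K + 1) * ρ ≤ T := by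
      have : (K + 1) * ρ = K * ρ + ρ := by ring
      omega
    exact_mod_cast this
  have htel := sum_pow_ge e K (T := (T : ℝ)) hρR.le hKR
  have hlast : ((T : ℝ) - (K + 1) * ρ) ^ (e + 1) ≤ (T₂ : ℝ) ^ (e + 1) := by
    apply pow_le_pow_left₀ (by linarith)
    have : T ≤ T₂ + (K + 1) * ρ := by omega
    have : (T : ℝ) ≤ T₂ + (K + 1) * ρ := by exact_mod_cast this
    linarith
  have hmain : (1 - ε / 4) * (T : ℝ) ^ (e + 1) ≤
      (e + 1) * ρ * ∑ k ∈ range K, ((T : ℝ) - (k + 1) * ρ) ^ e := by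
    have h5 : ((T : ℝ) + -(ρ : ℝ)) = (T : ℝ) - ρ := by ring
    rw [h5] at hT
    linarith
  have hE0 : (0 : ℝ) ≤ E := Nat.cast_nonneg E
  calc (1 - ε) * ((T : ℝ) * H T)
      ≤ (1 - ε) * ((T : ℝ) * ((1 + ε / 4) * (E * (T : ℝ) ^ e / (e.factorial : ℝ)))) := by
        apply mul_le_mul_of_nonneg_left _ (by linarith)
        exact mul_le_mul_of_nonneg_left hup hTpos.le
    _ = ((1 - ε) * (1 + ε / 4)) * ((E : ℝ) / (e.factorial : ℝ) * (T : ℝ) ^ (e + 1)) := by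
        rw [pow_succ]; ring
    _ ≤ ((1 - ε / 4) * (1 - ε / 4)) * ((E : ℝ) / (e.factorial : ℝ) * (T : ℝ) ^ (e + 1)) := by
        apply mul_le_mul_of_nonneg_right _ (by positivity)
        nlinarith
    _ = (1 - ε / 4) * ((E : ℝ) / (e.factorial : ℝ)) * ((1 - ε / 4) * (T : ℝ) ^ (e + 1)) := by
        ring
    _ ≤ (1 - ε / 4) * ((E : ℝ) / (e.factorial : ℝ)) *
        ((e + 1) * ρ * ∑ k ∈ range K, ((T : ℝ) - (k + 1) * ρ) ^ e) := by
        apply mul_le_mul_of_nonneg_left hmain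
        have : 0 ≤ 1 - ε / 4 := by linarith
        positivity
    _ = (e + 1) * (ρ * ∑ k ∈ range K, (1 - ε / 4) * (E * ((T : ℝ) - (k + 1) * ρ) ^ e /
          (e.factorial : ℝ))) := by
        have : ∑ k ∈ range K, (1 - ε / 4) * (E * ((T : ℝ) - (k + 1) * ρ) ^ e /
          (e.factorial : ℝ)) = (1 - ε / 4) * ((E : ℝ) / (e.factorial : ℝ)) *
            ∑ k ∈ range K, ((T : ℝ) - (k + 1) * ρ) ^ e := by
          rw [Finset.mul_sum]
          refine Finset.sum_congr rfl fun k _ => ?_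
          ring
        rw [this]
        ring
    _ ≤ (e + 1) * (ρ * ∑ k ∈ range K, (H (T - (k + 1) * ρ) : ℝ)) := by
        apply mul_le_mul_of_nonneg_left _ (by positivity)
        exact mul_le_mul_of_nonneg_left (Finset.sum_le_sum hlow) hρR.le
    _ ≤ (e + 1) * (ρ * ∑ k ∈ range (T / ρ), (H (T - (k + 1) * ρ) : ℝ)) := by
        apply mul_le_mul_of_nonneg_left _ (by positivity)
        exact mul_le_mul_of_nonneg_left hsub hρR.le

/-- the same, uniformly in `e ≤ e₀` -/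
theorem sum_ge (e₀ E₀ ρ : ℕ) (hρ : 0 < ρ) {ε : ℝ} (hε : 0 < ε) (hε1 : ε < 1) :
    ∀ᶠ T : ℕ in atTop, ∀ e E : ℕ, e ≤ e₀ → E ≤ E₀ → ∀ H : ℕ → ℕ, TwoSided e E H →
      (1 - ε) * ((T : ℝ) * H T) ≤
        (e + 1) * (ρ * ∑ k ∈ range (T / ρ), (H (T - (k + 1) * ρ) : ℝ)) := by
  have h : ∀ᶠ T : ℕ in atTop, ∀ e ∈ range (e₀ + 1), ∀ E : ℕ, E ≤ E₀ → ∀ H : ℕ → ℕ,
      TwoSided e E H → (1 - ε) * ((T : ℝ) * H T) ≤
        (e + 1) * (ρ * ∑ k ∈ range (T / ρ), (H (T - (k + 1) * ρ) : ℝ)) :=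
    (Filter.eventually_all_finset _).2 fun e _ => sum_ge_one e E₀ ρ hρ hε hε1
  filter_upwards [h] with T hT e E he hE
  exact hT e (Finset.mem_range.2 (by omega)) E hE

/-- **[ASY]** uniform asymptotic form of the right hand side of the counting inequality. -/
theorem asy (e₀ D₀ E₀ r₁ : ℕ) {ε : ℝ} (hε : 0 < ε) (hε1 : ε < 1) :
    ∃ r : ℕ, 0 < r ∧ ∃ T₀ : ℕ, ∀ d D e E : ℕ, 1 ≤ d → 1 ≤ D → D ≤ D₀ → e ≤ e₀ → E ≤ E₀ →
      ∀ H Hj : ℕ → ℕ, TwoSided d D H → TwoSided e E Hj → 0 < H r ∧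
      ∀ T : ℕ, T₀ ≤ T →
        (T / (r + r₁)) * (r + r₁) ≤ T ∧
        (1 - ε) * ((d : ℝ) / (e + 1)) * (D : ℝ) ^ ((1 : ℝ) / d) * (T * Hj T) ≤
        (d : ℝ) * ((d.factorial : ℝ) ^ ((1 : ℝ) / d)) * ((H r : ℝ) ^ ((1 : ℝ) / d)) *
          ∑ k ∈ range (T / (r + r₁)), (Hj (T - (k + 1) * (r + r₁)) : ℝ) - (d + 1) * Hj T := by
  obtain ⟨r, hr, hr'⟩ := exists_r D₀ r₁ (ε := ε / 4) (by positivity)
  have h1 := sum_ge e₀ E₀ (r + r₁) (by omega) (ε := ε / 4) (by positivity) (by linarith)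
  obtain ⟨N, hN⟩ := exists_nat_gt (4 * ((e₀ : ℝ) + 1) / ε)
  obtain ⟨T₀, hT₀⟩ := eventually_atTop.1 (h1.and (eventually_ge_atTop N))
  refine ⟨r, hr, T₀, ?_⟩
  intro d D e E hd hD hDD he hE H Hj hH hHj
  obtain ⟨hHr, h2⟩ := hr' d D hd hD hDD H hH
  refine ⟨hHr, fun T hT => ⟨Nat.div_mul_le_self _ _, ?_⟩⟩
  obtain ⟨h3, hNT⟩ := hT₀ T hT
  have h4 := h3 e E he hE Hj hHj
  set P : ℝ := (D : ℝ) ^ ((1 : ℝ) / d) with hP
  have hP1 : 1 ≤ P := Real.one_le_rpow (by exact_mod_cast hD) (by positivity)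
  set F : ℝ := ((d.factorial : ℝ) ^ ((1 : ℝ) / d)) * ((H r : ℝ) ^ ((1 : ℝ) / d)) with hF
  have hF0 : 0 ≤ F := by positivity
  set S : ℝ := ∑ k ∈ range (T / (r + r₁)), (Hj (T - (k + 1) * (r + r₁)) : ℝ) with hS
  have hS0 : 0 ≤ S := Finset.sum_nonneg fun _ _ => Nat.cast_nonneg _
  have hHT : (0 : ℝ) ≤ Hj T := Nat.cast_nonneg _
  have hdR : (1 : ℝ) ≤ d := by exact_mod_cast hd
  have heR : (0 : ℝ) < (e : ℝ) + 1 := by positivity
  push_cast at h4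
  -- main term
  have h5 : (1 - ε / 4) * (1 - ε / 4) * P * (T * Hj T) ≤ (e + 1) * (F * S) := by
    have ha : 0 ≤ (1 - ε / 4) * P := mul_nonneg (by linarith) (by linarith)
    calc (1 - ε / 4) * (1 - ε / 4) * P * (T * Hj T)
        = (1 - ε / 4) * P * ((1 - ε / 4) * (T * Hj T)) := by ring
      _ ≤ (1 - ε / 4) * P * ((e + 1) * (((r : ℝ) + r₁) * S)) :=
          mul_le_mul_of_nonneg_left h4 ha
      _ = ((1 - ε / 4) * P * ((r : ℝ) + r₁)) * ((e + 1) * S) := by ring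
      _ ≤ F * ((e + 1) * S) := mul_le_mul_of_nonneg_right h2 (by positivity)
      _ = (e + 1) * (F * S) := by ring
  -- error term
  have h6 : (e + 1) * ((d + 1) * (Hj T : ℝ)) ≤ ε / 2 * (d * P * (T * Hj T)) := by
    have hNR : (N : ℝ) ≤ T := by exact_mod_cast hNT
    rw [div_lt_iff₀ hε] at hN
    have heR' : (e : ℝ) ≤ e₀ := by exact_mod_cast he
    have h7 : 4 * ((e : ℝ) + 1) ≤ ε * T := by
      nlinarith
    have h8 : ((e : ℝ) + 1) * (d + 1) ≤ ε / 2 * (d * P * T) := by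
      have h9 : ((e : ℝ) + 1) * (d + 1) ≤ ((e : ℝ) + 1) * (2 * d) :=
        mul_le_mul_of_nonneg_left (by linarith) heR.le
      have hT0 : (0 : ℝ) ≤ T := Nat.cast_nonneg T
      have h10 : ε / 2 * (d * 1 * T) ≤ ε / 2 * (d * P * T) := by gcongr
      have h11 : ((e : ℝ) + 1) * (2 * d) ≤ ε / 2 * (d * 1 * T) := by
        have := mul_le_mul_of_nonneg_right h7 (by linarith : (0 : ℝ) ≤ d / 2)
        nlinarith
      linarith
    calc (e + 1) * ((d + 1) * (Hj T : ℝ)) = (((e : ℝ) + 1) * (d + 1)) * Hj T := by ring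
      _ ≤ (ε / 2 * (d * P * T)) * Hj T := mul_le_mul_of_nonneg_right h8 hHT
      _ = ε / 2 * (d * P * (T * Hj T)) := by ring
  have h7 : (1 - ε) * ((d : ℝ) / (e + 1)) * P * (T * Hj T) =
      ((1 - ε) * d * P * (T * Hj T)) / (e + 1) := by ring
  rw [h7, div_le_iff₀ heR]
  have h8 : (d : ℝ) * ((d.factorial : ℝ) ^ ((1 : ℝ) / d)) * ((H r : ℝ) ^ ((1 : ℝ) / d)) * S =
      d * (F * S) := by rw [hF]; ring
  rw [h8]
  have h9 : 0 ≤ (d : ℝ) * P * (T * Hj T) := by positivity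
  have h10 : d * ((1 - ε / 4) * (1 - ε / 4) * P * (T * Hj T)) ≤ d * ((e + 1) * (F * S)) :=
    mul_le_mul_of_nonneg_left h5 (by linarith)
  have h11 : (1 - ε) * (d * P * (T * Hj T)) ≤
      ((1 - ε / 4) * (1 - ε / 4) - ε / 2) * (d * P * (T * Hj T)) := by
    apply mul_le_mul_of_nonneg_right _ h9
    nlinarith
  nlinarith

end Vale.Agent.P271.Deg
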