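import Vale.Agent.P271.Deg.Asy
import Vale.Agent.P271.H207.GrTrunc

/-!
# P271, blocks ASY + COUNT: uniform lower bound for the sum of the refining weights

`count_asy` : for a `GrSys` whose trace `G` has Hilbert function with two sided bounds of dimension
`d`, degree `Dg ≤ D₀`, and whose quotients `V M / (F M).sub t` have Hilbert function with two sided
bounds of dimension `e ≤ e₀`, degree `E ≤ E₀`: for `T ≥ T₀(e₀, D₀, E₀, r₁, ε)`
`(1 - ε) * (d / (e + 1)) * Dg ^ (1 / d) * (T * Hj T) ≤ TQ (lexT) - α * TQ (F T)`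
(`lexT` = refinement by the orders truncated at `Q ≥ dim V T`).
-/

set_option linter.all false

open Filter Topology Finset Module

universe u v

namespace Vale.Agent.P271.Deg

open Vale.Agent.P271.H207 Vale.Agent.P271.F507 Vale.Agent.P271.Filt Vale.Agent.P271.Filt.Wt

/-- hypotheses `hm`, `hS`: all the weights used belong to the set `S` of the system;
`Hj` = dimension of `V M ⧸ (F M).sub t` on the levels `T - k ρ`. -/
theorem count_asy (e₀ D₀ E₀ r₁ : ℕ) {ε : ℝ} (hε : 0 < ε) (hε1 : ε < 1) :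
    ∃ r : ℕ, 0 < r ∧ ∃ T₀ : ℕ, ∀ (K : Type u) (A : Type v) [Field K] [CommRing A] [Algebra K A]
      (d Dg e E : ℕ) (S : Set ℝ), 1 ≤ d → 1 ≤ Dg → Dg ≤ D₀ → e ≤ e₀ → E ≤ E₀ →
      ∀ (D : GrSys K A d S) (H Hj : ℕ → ℕ), TwoSided d Dg H → TwoSided e E Hj →
      finrank K (D.G r) = H r →
      (∀ ε : Fin d → ℕ, (∀ j, ε j ≤ 1) → ∃ g ∈ D.G r₁, IsLead1 g ε) →
      ∀ T : ℕ, T₀ ≤ T → ∀ t : ℝ,
      (∀ M ≤ T, Hj M + finrank K ((D.F M).sub t) = finrank K (D.V M)) →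
      ∀ (hm : ∀ x : D.V T, x ≠ 0 → (D.F T).w x ∈ S),
      (∀ M < T, ∀ x : D.V M, x ≠ 0 → (D.F M).w x < t → (D.F M).w x ∈ S) →
      ∀ {Q : ℕ}, finrank K (D.V T) ≤ Q →
      ∀ {α : ℝ} (hα : LexStrict (D.F T) ((D.gr T hm).hT Q) α),
      (1 - ε) * ((d : ℝ) / (e + 1)) * (Dg : ℝ) ^ ((1 : ℝ) / d) * (T * Hj T) ≤
        ((D.gr T hm).lexT hα).TQ ((D.F T).sub t) - α * (D.F T).TQ ((D.F T).sub t) := by
  obtain ⟨r, hr, T₀, h⟩ := asy e₀ D₀ E₀ r₁ hε hε1
  refine ⟨r, hr, max T₀ 1, ?_⟩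
  intro K A _ _ _ d Dg e E S hd hD hDD he hE D H Hj hH hHj hGH hcube T hT t hcod hm hS Q hQ α hα
  obtain ⟨hHr, h1⟩ := h d Dg e E hd hD hDD he hE H Hj hH hHj
  obtain ⟨hk, h2⟩ := h1 T (le_trans (le_max_left _ _) hT)
  refine h2.trans ?_
  have hG : D.G r ≠ ⊥ := by
    intro h0
    have := hGH
    rw [h0, finrank_bot] at this
    omega
  have hT1 : 1 ≤ T := le_trans (le_max_right _ _) hT
  have hS' : ∀ j < T / (r + r₁), ∀ x : D.V (T - (j + 1) * (r + r₁)), x ≠ 0 →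
      (D.F (T - (j + 1) * (r + r₁))).w x < t → (D.F (T - (j + 1) * (r + r₁))).w x ∈ S := by
    intro j hj
    apply hS
    have : 1 ≤ (j + 1) * (r + r₁) := Nat.mul_pos (by omega) (by omega)
    omega
  have h3 := D.count_trunc (by omega) t r r₁ hcube hG (T / (r + r₁)) T hk hm hS' hQ hα
  have hcodR : ∀ M ≤ T, (finrank K (D.V M) : ℝ) - finrank K ((D.F M).sub t) = Hj M := by
    intro M hM
    rw [← hcod M hM]
    push_cast
    ring
  rw [hGH, hcodR T le_rfl] at h3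
  refine le_trans (le_of_eq ?_) h3
  congr 2
  refine Finset.sum_congr rfl fun j _ => ?_
  rw [hcodR _ (Nat.sub_le _ _)]

theorem count_ring_asy (e₀ D₀ E₀ r₁ : ℕ) {ε : ℝ} (hε : 0 < ε) (hε1 : ε < 1) :
    ∃ r : ℕ, 0 < r ∧ ∃ T₀ : ℕ, ∀ (K : Type u) (A : Type v) [Field K] [CommRing A] [Algebra K A]
      (d Dg e E : ℕ), 1 ≤ d → 1 ≤ Dg → Dg ≤ D₀ → e ≤ e₀ → E ≤ E₀ →
      ∀ (D : GrRing K A d) (H Hj : ℕ → ℕ), TwoSided d Dg H → TwoSided e E Hj →
      finrank K (D.G r) = H r →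
      (∀ ε : Fin d → ℕ, (∀ j, ε j ≤ 1) → ∃ g ∈ D.G r₁, IsLead1 g ε) →
      ∀ T : ℕ, T₀ ≤ T → ∀ t : ℝ,
      (∀ M ≤ T, Hj M + finrank K ((D.F M).sub t) = finrank K (D.V M)) →
      ∀ {Q : ℕ}, finrank K (D.V T) ≤ Q →
      ∀ {α : ℝ} (hα : LexStrict (D.F T) ((D.gr T).hT Q) α),
      (1 - ε) * ((d : ℝ) / (e + 1)) * (Dg : ℝ) ^ ((1 : ℝ) / d) * (T * Hj T) ≤
        ((D.gr T).lexT hα).TQ ((D.F T).sub t) - α * (D.F T).TQ ((D.F T).sub t) := by
  obtain ⟨r, hr, T₀, h⟩ := asy e₀ D₀ E₀ r₁ hε hε1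
  refine ⟨r, hr, T₀, ?_⟩
  intro K A _ _ _ d Dg e E hd hD hDD he hE D H Hj hH hHj hGH hcube T hT t hcod Q hQ α hα
  obtain ⟨hHr, h1⟩ := h d Dg e E hd hD hDD he hE H Hj hH hHj
  obtain ⟨hk, h2⟩ := h1 T hT
  refine h2.trans ?_
  have hG : D.G r ≠ ⊥ := by
    intro h0
    have := hGH
    rw [h0, finrank_bot] at this
    omega
  have h3 := D.count_ring_trunc (by omega) t r r₁ hcube hG (T / (r + r₁)) T hk hQ hα
  have hcodR : ∀ M ≤ T, (finrank K (D.V M) : ℝ) - finrank K ((D.F M).sub t) = Hj M := by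
    intro M hM
    rw [← hcod M hM]
    push_cast
    ring
  rw [hGH, hcodR T le_rfl] at h3
  refine le_trans (le_of_eq ?_) h3
  congr 2
  refine Finset.sum_congr rfl fun j _ => ?_
  rw [hcodR _ (Nat.sub_le _ _)]

/-- **Numerical end of the proof.**  `E k j` = the refining invariants at stage `k`, `l k` = root of
the degree of `W_k`. -/
theorem sum_c_le {n r : ℕ} (hr : 0 < r) (c : ℕ → ℝ) (hc : ∀ j < r, 0 ≤ c j) (dd : ℕ → ℕ)
    (hd0 : dd 0 = n) (hdn : ∀ j, 0 < j → j < r → dd j < n) (hd1 : ∀ j < r, 1 ≤ dd j)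
    (l : ℕ → ℝ) (hl : ∀ k < r, 1 ≤ l k) (E : ℕ → ℕ → ℝ) {ε η : ℝ} (hε : 0 ≤ ε) (hε1 : ε < 1)
    (hη : 0 ≤ η)
    (hK3 : ∀ k < r, ∑ j ∈ range (k + 1), c j * E k j ≤ dd k * (1 + η))
    (hlow : ∀ k < r, ∀ j ≤ k, (1 - ε) * ((dd k : ℝ) / (dd j + 1)) * l k ≤ E k j) :
    (∀ k < r, ∑ j ∈ range (k + 1), c j / (dd j + 1) ≤ (1 + η) / ((1 - ε) * l k)) ∧
    ∑ j ∈ range r, c j ≤ (n + 1 / l 0) * ((1 + η) / (1 - ε)) := by
  have key : ∀ k < r, ∑ j ∈ range (k + 1), c j / (dd j + 1) ≤ (1 + η) / ((1 - ε) * l k) := by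
    intro k hk
    have hlk := hl k hk
    have hdk : (1 : ℝ) ≤ dd k := by exact_mod_cast hd1 k hk
    have h1 : (1 - ε) * dd k * l k * ∑ j ∈ range (k + 1), c j / (dd j + 1) ≤
        dd k * (1 + η) := by
      refine le_trans ?_ (hK3 k hk)
      rw [Finset.mul_sum]
      refine Finset.sum_le_sum fun j hj => ?_
      have hj' : j ≤ k := by
        have := Finset.mem_range.1 hj; omega
      have h2 := mul_le_mul_of_nonneg_left (hlow k hk j hj') (hc j (by omega))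
      refine le_trans (le_of_eq ?_) h2
      ring
    have h3 : 0 < (1 - ε) * l k := mul_pos (by linarith) (by linarith)
    rw [le_div_iff₀ h3]
    have h4 : (dd k : ℝ) * ((∑ j ∈ range (k + 1), c j / (dd j + 1)) * ((1 - ε) * l k)) ≤
        dd k * (1 + η) := by
      refine le_trans (le_of_eq ?_) h1
      ring
    exact le_of_mul_le_mul_left h4 (by linarith)
  refine ⟨key, ?_⟩
  have h0 := key 0 hr
  have h1 := key (r - 1) (by omega)
  rw [Nat.sub_add_cancel hr] at h1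
  have hl0 := hl 0 hr
  have hl1 := hl (r - 1) (by omega)
  have hε' : 0 < 1 - ε := by linarith
  simp only [zero_add, Finset.range_one, Finset.sum_singleton, hd0] at h0
  have h2 : (1 + η) / ((1 - ε) * l (r - 1)) ≤ (1 + η) / (1 - ε) := by
    apply div_le_div_of_nonneg_left (by linarith) hε'
    nlinarith
  have h3 : ∀ j ∈ range r, c j ≤ n * (c j / (dd j + 1)) + if j = 0 then c 0 / (n + 1) else 0 := by
    intro j hj
    have hj' := Finset.mem_range.1 hj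
    have hcj := hc j hj'
    split_ifs with h
    · subst h
      rw [hd0]
      have : (0 : ℝ) < (n : ℝ) + 1 := by positivity
      have h4 : (n : ℝ) * (c 0 / (n + 1)) + c 0 / (n + 1) = c 0 := by
        field_simp
      rw [h4]
    · have h4 := hdn j (by omega) hj'
      have h5 : ((dd j : ℝ) + 1) ≤ n := by exact_mod_cast h4
      have h6 : (0 : ℝ) < (dd j : ℝ) + 1 := by positivity
      rw [add_zero]
      calc c j = (dd j + 1) * (c j / (dd j + 1)) := by field_simp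
        _ ≤ n * (c j / (dd j + 1)) := mul_le_mul_of_nonneg_right h5 (by positivity)
  have h4 := Finset.sum_le_sum h3
  rw [Finset.sum_add_distrib, ← Finset.mul_sum, Finset.sum_ite_eq' (range r) 0
    (fun _ => c 0 / ((n : ℝ) + 1)), if_pos (Finset.mem_range.2 hr)] at h4
  have h5 : (n : ℝ) * ∑ j ∈ range r, c j / (dd j + 1) ≤ n * ((1 + η) / (1 - ε)) :=
    mul_le_mul_of_nonneg_left (h1.trans h2) (Nat.cast_nonneg n)
  have h6 : (1 + η) / ((1 - ε) * l 0) = 1 / l 0 * ((1 + η) / (1 - ε)) := by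
    field_simp
  rw [h6] at h0
  calc ∑ j ∈ range r, c j ≤ n * ((1 + η) / (1 - ε)) + 1 / l 0 * ((1 + η) / (1 - ε)) := by
        linarith
    _ = (n + 1 / l 0) * ((1 + η) / (1 - ε)) := by ring

end Vale.Agent.P271.Deg
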