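import Vale.Agent.P271.Deg.Step

/-!
# P271, block DEG: uniform degree bound

`deg_bound`: in a standard graded domain `R` over a field of characteristic zero all relevant primes
which are minimal over an ideal generated by homogeneous elements of degree `≤ M` have Hilbert
functions satisfying the two sided bound `TwoSided d D` with `D ≤ D₀(R, M)`.
-/

set_option linter.all false

open DirectSum

namespace Vale.Agent.P271.Deg

open Vale.Agent.P271.Drop (hilb)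

variable {k R : Type*} [Field k] [CommRing R] [Algebra k R] (𝒜 : ℕ → Submodule k R)
  [GradedAlgebra 𝒜]

theorem iterate_mono {M : ℕ} : ∀ (j : ℕ) {a b : ℕ}, a ≤ b →
    (fun D => D * (M + D))^[j] a ≤ (fun D => D * (M + D))^[j] b := by
  intro j
  induction j with
  | zero => intro a b h; exact h
  | succ j ih =>
    intro a b h
    rw [Function.iterate_succ_apply, Function.iterate_succ_apply]
    refine ih ?_
    gcongr

/-- The chain argument. -/
theorem chain_bound [CharZero k] [∀ t, Module.Finite k (𝒜 t)] (hfin : (𝒜 1).FG)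
    (hgen : Algebra.adjoin k (𝒜 1 : Set R) = ⊤) {M : ℕ} {S : Set R}
    (hS : ∀ s ∈ S, ∃ j ≤ M, s ∈ 𝒜 j) {P : Ideal R} (hPm : P ∈ (Ideal.span S).minimalPrimes)
    (hrel : ¬ (𝒜 1 : Set R) ⊆ P) :
    ∀ (d D : ℕ) (P₀ : Ideal R), P₀.IsPrime → P₀.IsHomogeneous 𝒜 → 1 ≤ D →
      TwoSided d D (hilb 𝒜 P₀) → P₀ ≤ P →
      ∃ j ≤ d, ∃ D', 1 ≤ D' ∧ D' ≤ (fun D => D * (M + D))^[j] D ∧
        TwoSided (d - j) D' (hilb 𝒜 P) := by
  intro d
  induction d with
  | zero =>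
    intro D P₀ hP₀ hh hD hTS hle
    rcases hle.eq_or_lt with rfl | hlt
    · exact ⟨0, le_rfl, D, hD, le_rfl, hTS⟩
    · exfalso
      obtain ⟨f, hfS, hfP₀⟩ : ∃ f ∈ S, f ∉ P₀ := by
        by_contra hcon
        push Not at hcon
        have h1 : Ideal.span S ≤ P₀ := Ideal.span_le.2 hcon
        exact absurd (hPm.2 ⟨hP₀, h1⟩ hle) (not_le_of_gt hlt)
      obtain ⟨j, hj, hfj⟩ := hS f hfS
      have hfP : f ∈ P := hPm.1.2 (Ideal.subset_span hfS)
      have hPp : P.IsPrime := hPm.1.1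
      obtain ⟨Q, hQ, hQP⟩ := Ideal.exists_minimalPrimes_le
        (I := P₀ ⊔ Ideal.span {f}) (J := P) (sup_le hle ((Ideal.span_singleton_le_iff_mem P).2 hfP))
      obtain ⟨e, D', he, -⟩ := step 𝒜 hfin hgen hP₀ hh hD hTS hfj hfP₀ hQ
        (fun h => hrel (h.trans hQP))
      omega
  | succ d ih =>
    intro D P₀ hP₀ hh hD hTS hle
    rcases hle.eq_or_lt with rfl | hlt
    · exact ⟨0, Nat.zero_le _, D, hD, le_rfl, hTS⟩
    · obtain ⟨f, hfS, hfP₀⟩ : ∃ f ∈ S, f ∉ P₀ := by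
        by_contra hcon
        push Not at hcon
        have h1 : Ideal.span S ≤ P₀ := Ideal.span_le.2 hcon
        exact absurd (hPm.2 ⟨hP₀, h1⟩ hle) (not_le_of_gt hlt)
      obtain ⟨j, hj, hfj⟩ := hS f hfS
      have hfP : f ∈ P := hPm.1.2 (Ideal.subset_span hfS)
      have hPp : P.IsPrime := hPm.1.1
      obtain ⟨Q, hQ, hQP⟩ := Ideal.exists_minimalPrimes_le
        (I := P₀ ⊔ Ideal.span {f}) (J := P) (sup_le hle ((Ideal.span_singleton_le_iff_mem P).2 hfP))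
      have hQh : Q.IsHomogeneous 𝒜 :=
        isHomogeneous_of_mem_minimalPrimes 𝒜 (isHomogeneous_sup_span 𝒜 hh hfj) hQ
      obtain ⟨e, D', he, hD', hle', hTS'⟩ := step 𝒜 hfin hgen hP₀ hh hD hTS hfj hfP₀ hQ
        (fun h => hrel (h.trans hQP))
      obtain rfl : d = e := by omega
      obtain ⟨i, hi, D'', hD'', hle'', hTS''⟩ := ih D' Q hQ.1.1 hQh hD' hTS' hQP
      refine ⟨i + 1, by omega, D'', hD'', ?_, ?_⟩
      · rw [Function.iterate_succ_apply]
        refine hle''.trans (iterate_mono i ?_)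
        refine hle'.trans ?_
        gcongr
      · rwa [Nat.add_sub_add_right]

/-- **Uniform degree bound.** -/
theorem deg_bound [CharZero k] [IsDomain R] (hfin : (𝒜 1).FG) (h1 : 𝒜 1 ≠ ⊥)
    (hgen : Algebra.adjoin k (𝒜 1 : Set R) = ⊤) (M : ℕ) :
    ∃ d₀ D₀ : ℕ, ∀ S : Set R, (∀ s ∈ S, ∃ j ≤ M, s ∈ 𝒜 j) → ∀ P ∈ (Ideal.span S).minimalPrimes,
      ¬ (𝒜 1 : Set R) ⊆ P → P.IsHomogeneous 𝒜 ∧
      ∃ (d : ℕ) (y : Fin (d + 1) → R) (D : ℕ), (∀ i, y i ∈ 𝒜 1) ∧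
        AlgebraicIndependent k (fun i => Ideal.Quotient.mk P (y i)) ∧
        (∀ x : R ⧸ P, IsIntegral
          (Algebra.adjoin k (Set.range (fun i => Ideal.Quotient.mk P (y i)))) x) ∧
        d ≤ d₀ ∧ 1 ≤ D ∧ D ≤ D₀ ∧ TwoSided d D (hilb 𝒜 P) := by
  have hfp := finite_pieces 𝒜 hfin hgen h1
  have hbotp : (⊥ : Ideal R).IsPrime := Ideal.isPrime_bot
  have hboth : (⊥ : Ideal R).IsHomogeneous 𝒜 := Ideal.IsHomogeneous.bot 𝒜
  have hbotrel : ¬ (𝒜 1 : Set R) ⊆ (⊥ : Ideal R) := by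
    intro h
    apply h1
    rw [eq_bot_iff]
    intro x hx
    exact h hx
  obtain ⟨d₀, y₀, D₀, -, -, -, hD₀, hTS₀⟩ := prime_data 𝒜 hfin hgen hbotp hboth hbotrel
  refine ⟨d₀, (Finset.range (d₀ + 1)).sup (fun j => (fun D => D * (M + D))^[j] D₀), ?_⟩
  intro S hS P hPm hrel
  have hspan : (Ideal.span S).IsHomogeneous 𝒜 := by
    refine Ideal.homogeneous_span 𝒜 _ ?_
    intro x hx
    obtain ⟨j, -, hj⟩ := hS x hx
    exact ⟨j, hj⟩
  have hPh := isHomogeneous_of_mem_minimalPrimes 𝒜 hspan hPm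
  obtain ⟨j, hj, D', hD', hle, hTS'⟩ := chain_bound 𝒜 hfin hgen hS hPm hrel d₀ D₀ ⊥ hbotp hboth
    hD₀ hTS₀ bot_le
  obtain ⟨d, y, D, hy, hind, hint, hD, hTS⟩ := prime_data 𝒜 hfin hgen hPm.1.1 hPh hrel
  obtain ⟨rfl, rfl⟩ := hTS.unique hTS' hD hD'
  refine ⟨hPh, _, y, D, hy, hind, hint, by omega, hD, ?_, hTS⟩
  refine hle.trans ?_
  exact Finset.le_sup (f := fun j => (fun D => D * (M + D))^[j] D₀)
    (Finset.mem_range.2 (by omega : j < d₀ + 1))

/-- Every relevant homogeneous prime strictly containing another one has smaller growth exponent;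
the growth exponent and `D` are determined by the Hilbert function (`TwoSided.unique`). -/
theorem exponent_lt [CharZero k] [IsDomain R] (hfin : (𝒜 1).FG) (h1 : 𝒜 1 ≠ ⊥)
    (hgen : Algebra.adjoin k (𝒜 1 : Set R) = ⊤) {P Q : Ideal R} (hP : P.IsPrime)
    (hPh : P.IsHomogeneous 𝒜) (hQ : Q.IsPrime) (hQh : Q.IsHomogeneous 𝒜) (hPQ : P < Q)
    (hrel : ¬ (𝒜 1 : Set R) ⊆ Q) {d D e E : ℕ} (hD : 1 ≤ D) (hE : 1 ≤ E)
    (hTS : TwoSided d D (hilb 𝒜 P)) (hTSQ : TwoSided e E (hilb 𝒜 Q)) : e < d := by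
  classical
  have hfp := finite_pieces 𝒜 hfin hgen h1
  -- choose a homogeneous element of `Q \ P`
  obtain ⟨x, hxQ, hxP⟩ := Set.exists_of_ssubset hPQ
  obtain ⟨M, hM⟩ : ∃ M, (DirectSum.decompose 𝒜 x M : R) ∉ P := by
    by_contra hcon
    push Not at hcon
    apply hxP
    rw [← DirectSum.sum_support_decompose 𝒜 x]
    exact Ideal.sum_mem _ fun i _ => hcon i
  have hfQ : (DirectSum.decompose 𝒜 x M : R) ∈ Q := hQh M hxQ
  obtain ⟨Q', hQ', hQ'Q⟩ := Ideal.exists_minimalPrimes_le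
    (I := P ⊔ Ideal.span {(DirectSum.decompose 𝒜 x M : R)}) (J := Q)
    (sup_le hPQ.le ((Ideal.span_singleton_le_iff_mem Q).2 hfQ))
  have hrel' : ¬ (𝒜 1 : Set R) ⊆ Q' := fun h => hrel (h.trans hQ'Q)
  obtain ⟨e', D', he', hD', -, hTS'⟩ := step 𝒜 hfin hgen hP hPh hD hTS
    (DirectSum.decompose 𝒜 x M).2 hM hQ' hrel'
  -- monotonicity `H_Q ≤ H_{Q'}`
  have hmono : ∀ t, hilb 𝒜 Q t ≤ hilb 𝒜 Q' t := by
    intro t
    rw [hilb_eq, hilb_eq]
    have h2 : qg 𝒜 Q t = (qg 𝒜 Q' t).map (Ideal.Quotient.factorₐ k hQ'Q).toLinearMap := by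
      unfold qg
      rw [← Submodule.map_comp]
      rfl
    have : Module.Finite k (qg 𝒜 Q' t) := by unfold qg; infer_instance
    rw [h2]
    exact Submodule.finrank_map_le _ _
  have hlt : ¬ e' < e := by
    intro hlt
    have h3 := tendsto_zero_of_lt hlt hTS'.tendsto
    have h4 : (0 : ℝ) < (E : ℝ) / (e.factorial : ℝ) := by
      have : (0 : ℝ) < E := by exact_mod_cast hE
      positivity
    have h5 : (E : ℝ) / (e.factorial : ℝ) ≤ 0 := by
      refine le_of_tendsto_of_tendsto hTSQ.tendsto h3 ?_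
      filter_upwards with t
      gcongr
      exact hmono t
    linarith
  omega

end Vale.Agent.P271.Deg
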