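import Mathlib

/-!
# P271, block DEG: two sided bounds for Hilbert functions, numerical part
-/

set_option linter.all false

open Filter Topology Finset

namespace Vale.Agent.P271.Deg

/-- The two sided bound of `Hilb.hilbert_bounds`. -/
def TwoSided (d D : ℕ) (H : ℕ → ℕ) : Prop :=
  ∀ t, ∑ i ∈ Finset.range D with i ≤ t, (t - i + d).choose d ≤ H t ∧
    H t ≤ ∑ i ∈ Finset.range D, (t + i + d).choose d

theorem tendsto_choose_add (e a : ℕ) :
    Tendsto (fun t : ℕ => (((t + a).choose e : ℕ) : ℝ) / (t : ℝ) ^ e) atTop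
      (𝓝 (1 / (e.factorial : ℝ))) := by
  have h1 := (isEquivalent_choose e)
  have hne : ∀ᶠ t : ℕ in atTop, ((t : ℝ) ^ e / (e.factorial : ℝ)) ≠ 0 := by
    filter_upwards [eventually_gt_atTop 0] with t ht
    have : (0 : ℝ) < t := by exact_mod_cast ht
    positivity
  have h2 := (Asymptotics.isEquivalent_iff_tendsto_one hne).1 h1
  have h3 : Tendsto (fun t : ℕ => t + a) atTop atTop := tendsto_add_atTop_nat a
  have h4 := h2.comp h3
  have h5 : Tendsto (fun t : ℕ => (((t + a : ℕ) : ℝ) / (t : ℝ))) atTop (𝓝 1) := by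
    have h6 : Tendsto (fun t : ℕ => (1 : ℝ) + (a : ℝ) / (t : ℝ)) atTop (𝓝 (1 + 0)) :=
      tendsto_const_nhds.add (tendsto_const_div_atTop_nhds_zero_nat (a : ℝ))
    rw [add_zero] at h6
    refine h6.congr' ?_
    filter_upwards [eventually_gt_atTop 0] with t ht
    have : (t : ℝ) ≠ 0 := by exact_mod_cast ht.ne'
    push_cast
    field_simp
  have h7 := (h4.mul (h5.pow e)).div_const (e.factorial : ℝ)
  rw [one_pow, one_mul] at h7
  refine h7.congr' ?_
  filter_upwards [eventually_gt_atTop 0] with t ht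
  have ht0 : (t : ℝ) ≠ 0 := by exact_mod_cast ht.ne'
  have hta : ((t + a : ℕ) : ℝ) ≠ 0 := by
    have : 0 < t + a := by omega
    exact_mod_cast this.ne'
  have hf : (e.factorial : ℝ) ≠ 0 := by exact_mod_cast e.factorial_ne_zero
  simp only [Function.comp, Pi.div_apply]
  rw [div_pow]
  field_simp

theorem tendsto_choose_sub (e a c : ℕ) :
    Tendsto (fun t : ℕ => (((t - a + c).choose e : ℕ) : ℝ) / (t : ℝ) ^ e) atTop
      (𝓝 (1 / (e.factorial : ℝ))) := by
  have h1 := (tendsto_choose_add e c).comp (tendsto_sub_atTop_nat a)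
  have h5 : Tendsto (fun t : ℕ => (((t - a : ℕ) : ℝ) / (t : ℝ))) atTop (𝓝 1) := by
    have h6 : Tendsto (fun t : ℕ => (1 : ℝ) - (a : ℝ) / (t : ℝ)) atTop (𝓝 (1 - 0)) :=
      tendsto_const_nhds.sub (tendsto_const_div_atTop_nhds_zero_nat (a : ℝ))
    rw [sub_zero] at h6
    refine h6.congr' ?_
    filter_upwards [eventually_gt_atTop a] with t ht
    have : (t : ℝ) ≠ 0 := by
      have : 0 < t := by omega
      exact_mod_cast this.ne'
    rw [Nat.cast_sub ht.le]
    field_simp
  have h7 := (h1.mul (h5.pow e))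
  rw [one_pow, mul_one] at h7
  refine h7.congr' ?_
  filter_upwards [eventually_gt_atTop a] with t ht
  have ht0 : (t : ℝ) ≠ 0 := by
    have : 0 < t := by omega
    exact_mod_cast this.ne'
  have hta : ((t - a : ℕ) : ℝ) ≠ 0 := by
    have : 0 < t - a := by omega
    exact_mod_cast this.ne'
  simp only [Function.comp]
  rw [div_pow]
  field_simp

theorem TwoSided.tendsto {d D : ℕ} {H : ℕ → ℕ} (h : TwoSided d D H) :
    Tendsto (fun t : ℕ => (H t : ℝ) / (t : ℝ) ^ d) atTop (𝓝 ((D : ℝ) / (d.factorial : ℝ))) := by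
  have hlow : Tendsto (fun t : ℕ => ∑ i ∈ Finset.range D,
      (((t - i + d).choose d : ℕ) : ℝ) / (t : ℝ) ^ d) atTop
      (𝓝 (∑ i ∈ Finset.range D, 1 / (d.factorial : ℝ))) :=
    tendsto_finset_sum _ fun i _ => tendsto_choose_sub d i d
  have hup : Tendsto (fun t : ℕ => ∑ i ∈ Finset.range D,
      (((t + (i + d)).choose d : ℕ) : ℝ) / (t : ℝ) ^ d) atTop
      (𝓝 (∑ i ∈ Finset.range D, 1 / (d.factorial : ℝ))) :=
    tendsto_finset_sum _ fun i _ => tendsto_choose_add d (i + d)
  rw [Finset.sum_const, Finset.card_range, nsmul_eq_mul, mul_one_div] at hlow hup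
  refine tendsto_of_tendsto_of_tendsto_of_le_of_le' hlow hup ?_ ?_
  · filter_upwards [eventually_ge_atTop D, eventually_gt_atTop 0] with t ht ht0
    have h1 := (h t).1
    rw [Finset.sum_filter_of_ne (p := fun i => i ≤ t)] at h1
    · rw [← Finset.sum_div]
      gcongr
      exact_mod_cast h1
    · intro i hi _
      have := Finset.mem_range.1 hi
      omega
  · filter_upwards [eventually_gt_atTop 0] with t ht0
    have h1 := (h t).2
    rw [← Finset.sum_div]
    gcongr
    simp only [add_assoc] at h1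
    exact_mod_cast h1

/-- growth exponents compare -/
theorem tendsto_zero_of_lt {a b : ℕ} (hab : a < b) {H : ℕ → ℕ} {c : ℝ}
    (h : Tendsto (fun t : ℕ => (H t : ℝ) / (t : ℝ) ^ a) atTop (𝓝 c)) :
    Tendsto (fun t : ℕ => (H t : ℝ) / (t : ℝ) ^ b) atTop (𝓝 0) := by
  obtain ⟨j, rfl⟩ := Nat.exists_eq_add_of_lt hab
  have h1 : Tendsto (fun t : ℕ => (1 : ℝ) / (t : ℝ) ^ (j + 1)) atTop (𝓝 0) := by
    have h2 : Tendsto (fun t : ℕ => (t : ℝ) ^ (j + 1)) atTop atTop :=
      (tendsto_pow_atTop (by omega)).comp tendsto_natCast_atTop_atTop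
    exact h2.inv_tendsto_atTop.congr fun t => by simp
  have h3 := h.mul h1
  rw [mul_zero] at h3
  refine h3.congr' ?_
  filter_upwards [eventually_gt_atTop 0] with t ht
  have ht0 : (t : ℝ) ≠ 0 := by exact_mod_cast ht.ne'
  rw [div_mul_div_comm, mul_one, ← pow_add, add_assoc]

theorem TwoSided.unique {d D d' D' : ℕ} {H : ℕ → ℕ} (h : TwoSided d D H) (h' : TwoSided d' D' H)
    (hD : 1 ≤ D) (hD' : 1 ≤ D') : d = d' ∧ D = D' := by
  have key : ∀ {d D d' D' : ℕ} {H : ℕ → ℕ} (h : TwoSided d D H) (h' : TwoSided d' D' H)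
    (hD : 1 ≤ D) (hD' : 1 ≤ D'), ¬ d < d' := by
    intro d D d' D' H h h' hD hD' hlt
    have h1 := tendsto_zero_of_lt hlt h.tendsto
    have h2 := tendsto_nhds_unique h1 h'.tendsto
    have h3 : (0 : ℝ) < (D' : ℝ) / (d'.factorial : ℝ) := by
      have : (0 : ℝ) < D' := by exact_mod_cast hD'
      positivity
    exact absurd h2 h3.ne
  have hdd : d = d' := by
    have h1 := key h h' hD hD'
    have h2 := key h' h hD' hD
    omega
  subst hdd
  have h2 := tendsto_nhds_unique h.tendsto h'.tendsto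
  have hf : (d.factorial : ℝ) ≠ 0 := by exact_mod_cast d.factorial_ne_zero
  rw [div_left_inj' hf] at h2
  exact ⟨rfl, by exact_mod_cast h2⟩

theorem choose_sub_choose_le (e a b : ℕ) (hab : b ≤ a) :
    (a + (e + 1)).choose (e + 1) ≤ (b + (e + 1)).choose (e + 1) + (a - b) * (a + e).choose e := by
  induction a, hab using Nat.le_induction with
  | base => simp
  | succ a hab ih =>
    have h1 : (a + 1 + (e + 1)).choose (e + 1) =
        (a + (e + 1)).choose e + (a + (e + 1)).choose (e + 1) := by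
      rw [show a + 1 + (e + 1) = (a + (e + 1)) + 1 by ring, Nat.choose_succ_succ]
    have h2 : (a + e).choose e ≤ (a + 1 + e).choose e := Nat.choose_le_choose _ (by omega)
    have h3 : (a + (e + 1)).choose e = (a + 1 + e).choose e := by
      congr 1; omega
    have h4 : a + 1 - b = (a - b) + 1 := by omega
    rw [h1, h3, h4]
    nlinarith

/-- **The numerical form of one step**: if `H' t ≤ H t - H (t - M)` and `H'` grows at least like
`t ^ e`, `d = e + 1`, then `d' = e` and `D' ≤ D (M + D)`. -/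
theorem TwoSided.drop {e D d' D' M : ℕ} {H H' : ℕ → ℕ} (h : TwoSided (e + 1) D H)
    (h' : TwoSided d' D' H') (hD' : 1 ≤ D')
    (hsub : ∀ t, M ≤ t → H' t + H (t - M) ≤ H t)
    (hlow : ∀ t, (t + e).choose e ≤ H' t) : d' = e ∧ D' ≤ D * (M + D) := by
  -- the upper bound
  have hup : ∀ᶠ t : ℕ in atTop, (H' t : ℝ) / (t : ℝ) ^ e ≤
      ∑ i ∈ Finset.range D, ((M + 2 * i : ℕ) : ℝ) * ((((t + (i + e)).choose e : ℕ) : ℝ)
        / (t : ℝ) ^ e) := by
    filter_upwards [eventually_ge_atTop (M + D), eventually_gt_atTop 0] with t ht ht0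
    have h1 := hsub t (by omega)
    have h2 := (h t).2
    have h3 := (h (t - M)).1
    rw [Finset.sum_filter_of_ne (p := fun i => i ≤ t - M)] at h3
    · have h4 : ∑ i ∈ Finset.range D, (t + i + (e + 1)).choose (e + 1) ≤
          ∑ i ∈ Finset.range D, (t - M - i + (e + 1)).choose (e + 1) +
          ∑ i ∈ Finset.range D, (M + 2 * i) * (t + i + e).choose e := by
        rw [← Finset.sum_add_distrib]
        refine Finset.sum_le_sum fun i hi => ?_
        have hi' := Finset.mem_range.1 hi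
        have h5 := choose_sub_choose_le e (t + i) (t - M - i) (by omega)
        have h6 : t + i - (t - M - i) = M + 2 * i := by omega
        rwa [h6] at h5
      have h7 : H' t ≤ ∑ i ∈ Finset.range D, (M + 2 * i) * (t + i + e).choose e := by omega
      have h8 : (H' t : ℝ) ≤ ∑ i ∈ Finset.range D,
          ((M + 2 * i : ℕ) : ℝ) * (((t + (i + e)).choose e : ℕ) : ℝ) := by
        simp only [← add_assoc]
        exact_mod_cast h7
      have h9 : ∑ i ∈ Finset.range D, ((M + 2 * i : ℕ) : ℝ) * ((((t + (i + e)).choose e : ℕ) : ℝ)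
        / (t : ℝ) ^ e) = (∑ i ∈ Finset.range D,
          ((M + 2 * i : ℕ) : ℝ) * (((t + (i + e)).choose e : ℕ) : ℝ)) / (t : ℝ) ^ e := by
        rw [Finset.sum_div]
        exact Finset.sum_congr rfl fun i _ => by rw [mul_div_assoc]
      rw [h9]
      gcongr
    · intro i hi _
      have := Finset.mem_range.1 hi
      omega
  have hlim : Tendsto (fun t : ℕ => ∑ i ∈ Finset.range D, ((M + 2 * i : ℕ) : ℝ) *
      ((((t + (i + e)).choose e : ℕ) : ℝ) / (t : ℝ) ^ e)) atTop
      (𝓝 (∑ i ∈ Finset.range D, ((M + 2 * i : ℕ) : ℝ) * (1 / (e.factorial : ℝ)))) :=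
    tendsto_finset_sum _ fun i _ => (tendsto_choose_add e (i + e)).const_mul _
  have hf : (0 : ℝ) < (e.factorial : ℝ) := by exact_mod_cast e.factorial_pos
  have hpos : (0 : ℝ) < (D' : ℝ) / (d'.factorial : ℝ) := by
    have : (0 : ℝ) < D' := by exact_mod_cast hD'
    positivity
  have hd1 : ¬ e < d' := by
    intro hlt
    -- squeeze `H' / t ^ d'` to zero
    obtain ⟨j, rfl⟩ := Nat.exists_eq_add_of_lt hlt
    have h1 : Tendsto (fun t : ℕ => (1 : ℝ) / (t : ℝ) ^ (j + 1)) atTop (𝓝 0) := by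
      have h2 : Tendsto (fun t : ℕ => (t : ℝ) ^ (j + 1)) atTop atTop :=
        (tendsto_pow_atTop (by omega)).comp tendsto_natCast_atTop_atTop
      exact h2.inv_tendsto_atTop.congr fun t => by simp
    have h3 := hlim.mul h1
    rw [mul_zero] at h3
    have h4 : Tendsto (fun t : ℕ => (H' t : ℝ) / (t : ℝ) ^ (e + j + 1)) atTop (𝓝 0) := by
      refine tendsto_of_tendsto_of_tendsto_of_le_of_le' tendsto_const_nhds h3 ?_ ?_
      · filter_upwards with t
        positivity
      · filter_upwards [hup, eventually_gt_atTop 0] with t ht ht0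
        have ht1 : (t : ℝ) ≠ 0 := by exact_mod_cast ht0.ne'
        have h5 : (H' t : ℝ) / (t : ℝ) ^ (e + j + 1) =
            (H' t : ℝ) / (t : ℝ) ^ e * (1 / (t : ℝ) ^ (j + 1)) := by
          rw [div_mul_div_comm, mul_one, ← pow_add, add_assoc]
        rw [h5]
        gcongr
    exact absurd (tendsto_nhds_unique h4 h'.tendsto) hpos.ne
  have hd2 : ¬ d' < e := by
    intro hlt
    have h1 := tendsto_zero_of_lt hlt h'.tendsto
    have h2 := tendsto_choose_add e e
    have h3 : (1 : ℝ) / (e.factorial : ℝ) ≤ 0 := by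
      refine le_of_tendsto_of_tendsto h2 h1 ?_
      filter_upwards with t
      gcongr
      exact hlow t
    have : (0 : ℝ) < 1 / (e.factorial : ℝ) := by positivity
    linarith
  have hde : d' = e := by omega
  subst hde
  refine ⟨rfl, ?_⟩
  have h1 := le_of_tendsto_of_tendsto h'.tendsto hlim hup
  rw [← Finset.sum_mul, mul_one_div, div_le_div_iff_of_pos_right hf] at h1
  have h2 : D' ≤ ∑ i ∈ Finset.range D, (M + 2 * i) := by exact_mod_cast h1
  refine h2.trans ?_
  have h3 : ∑ i ∈ Finset.range D, (M + 2 * i) = D * M + (∑ i ∈ Finset.range D, i) * 2 := by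
    rw [Finset.sum_add_distrib, Finset.sum_const, Finset.card_range, smul_eq_mul, ← Finset.mul_sum,
      mul_comm 2]
  rw [h3, Finset.sum_range_id_mul_two, mul_add]
  gcongr
  omega

/-- If `H' t ≤ H t - H (t - M)` and `H` has growth exponent zero then `H'` is eventually zero. -/
theorem TwoSided.drop_zero {D M : ℕ} {H H' : ℕ → ℕ} (h : TwoSided 0 D H)
    (hsub : ∀ t, M ≤ t → H' t + H (t - M) ≤ H t) : ∀ t, M + D ≤ t → H' t = 0 := by
  intro t ht
  have h1 := hsub t (by omega)
  have h2 := (h t).2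
  have h3 := (h (t - M)).1
  rw [Finset.sum_filter_of_ne (p := fun i => i ≤ t - M)] at h3
  · simp only [add_zero, Nat.choose_zero_right, Finset.sum_const, Finset.card_range, smul_eq_mul,
      mul_one] at h2 h3
    omega
  · intro i hi _
    have := Finset.mem_range.1 hi
    omega

end Vale.Agent.P271.Deg
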