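import Mathlib

/-!
# P271, block DEG: the grading of a quotient by a homogeneous ideal
-/

set_option linter.all false

open DirectSum

namespace Vale.Agent.P271.Deg

section
variable {k A : Type*} [Field k] [CommRing A] [Algebra k A] (𝒜 : ℕ → Submodule k A)
  (P : Ideal A)

/-- The images of the graded pieces in the quotient. -/
noncomputable def qg (t : ℕ) : Submodule k (A ⧸ P) :=
  (𝒜 t).map (Ideal.Quotient.mkₐ k P).toLinearMap

variable {𝒜 P}

theorem mem_qg {t : ℕ} {x : A ⧸ P} : x ∈ qg 𝒜 P t ↔ ∃ a ∈ 𝒜 t, Ideal.Quotient.mk P a = x :=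
  Iff.rfl

theorem mk_mem_qg {t : ℕ} {a : A} (ha : a ∈ 𝒜 t) : Ideal.Quotient.mk P a ∈ qg 𝒜 P t :=
  ⟨a, ha, rfl⟩

theorem qg_gradedMonoid [GradedAlgebra 𝒜] : SetLike.GradedMonoid (qg 𝒜 P) where
  one_mem := ⟨1, SetLike.GradedOne.one_mem, rfl⟩
  mul_mem := by
    rintro i j x y ⟨a, ha, rfl⟩ ⟨b, hb, rfl⟩
    exact ⟨a * b, SetLike.GradedMul.mul_mem ha hb, map_mul (Ideal.Quotient.mk P) a b⟩

theorem qg_isInternal [GradedAlgebra 𝒜] (hP : P.IsHomogeneous 𝒜) :
    DirectSum.IsInternal (qg 𝒜 P) := by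
  classical
  rw [DirectSum.isInternal_submodule_iff_iSupIndep_and_iSup_eq_top]
  constructor
  · rw [iSupIndep_iff_finsetSum_eq_zero_imp_eq_zero]
    intro s v hv h0 i hi
    -- lift
    have h1 : ∀ i, ∃ a ∈ 𝒜 i, i ∈ s → Ideal.Quotient.mk P a = v i := by
      intro i
      by_cases hi : i ∈ s
      · obtain ⟨a, ha, h⟩ := mem_qg.1 (hv i hi)
        exact ⟨a, ha, fun _ => h⟩
      · exact ⟨0, zero_mem _, fun h => absurd h hi⟩
    choose a ha hav using h1
    have h2 : ∑ j ∈ s, a j ∈ P := by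
      rw [← Ideal.Quotient.eq_zero_iff_mem, map_sum, ← h0]
      exact Finset.sum_congr rfl fun j hj => hav j hj
    have h3 := hP i h2
    have h4 : (DirectSum.decompose 𝒜 (∑ j ∈ s, a j) i : A) = a i := by
      rw [DirectSum.decompose_sum, DirectSum.sum_apply, AddSubmonoidClass.coe_finsetSum,
        Finset.sum_eq_single i]
      · exact DirectSum.decompose_of_mem_same _ (ha i)
      · intro j _ hj
        exact DirectSum.decompose_of_mem_ne _ (ha j) hj
      · intro h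
        exact absurd hi h
    rw [h4] at h3
    rw [← hav i hi]
    exact Ideal.Quotient.eq_zero_iff_mem.2 h3
  · rw [eq_top_iff]
    rintro x -
    obtain ⟨a, rfl⟩ := Ideal.Quotient.mk_surjective x
    have h : a = ∑ i ∈ (DirectSum.decompose 𝒜 a).support, (DirectSum.decompose 𝒜 a i : A) :=
      (DirectSum.sum_support_decompose 𝒜 a).symm
    rw [h, map_sum]
    refine Submodule.sum_mem _ fun i _ => ?_
    exact (le_iSup (qg 𝒜 P) i) (mk_mem_qg (DirectSum.decompose 𝒜 a i).2)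

/-- The quotient of a graded algebra by a homogeneous ideal is graded. -/
@[instance_reducible] noncomputable def qgGraded [GradedAlgebra 𝒜] (hP : P.IsHomogeneous 𝒜) :
    GradedAlgebra (qg 𝒜 P) :=
  { qg_gradedMonoid (𝒜 := 𝒜) (P := P), (qg_isInternal hP).chooseDecomposition with }

theorem qg_fg {t : ℕ} (h : (𝒜 t).FG) : (qg 𝒜 P t).FG := h.map _

theorem qg_gen (h : Algebra.adjoin k (𝒜 1 : Set A) = ⊤) :
    Algebra.adjoin k (qg 𝒜 P 1 : Set (A ⧸ P)) = ⊤ := by
  have h1 : (qg 𝒜 P 1 : Set (A ⧸ P)) = (Ideal.Quotient.mkₐ k P) '' (𝒜 1 : Set A) := rfl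
  rw [h1, ← AlgHom.map_adjoin, h, Algebra.map_top, AlgHom.range_eq_top]
  exact Ideal.Quotient.mkₐ_surjective k P

theorem qg_ne_bot (h : ¬ (𝒜 1 : Set A) ⊆ P) : qg 𝒜 P 1 ≠ ⊥ := by
  intro h0
  apply h
  intro a ha
  have h1 : Ideal.Quotient.mk P a ∈ qg 𝒜 P 1 := mk_mem_qg ha
  rw [h0, Submodule.mem_bot] at h1
  exact Ideal.Quotient.eq_zero_iff_mem.1 h1

/-- The kernel of `𝒜 t → qg 𝒜 P t`. -/
theorem finrank_qg_add (t : ℕ) [Module.Finite k (𝒜 t)] :
    Module.finrank k (qg 𝒜 P t) +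
      Module.finrank k ((P.restrictScalars k ⊓ 𝒜 t : Submodule k A)) =
      Module.finrank k (𝒜 t) := by
  let f : 𝒜 t →ₗ[k] (A ⧸ P) := (Ideal.Quotient.mkₐ k P).toLinearMap.comp (𝒜 t).subtype
  have h1 := f.finrank_range_add_finrank_ker
  have h2 : LinearMap.range f = qg 𝒜 P t := by
    rw [LinearMap.range_comp, Submodule.range_subtype]
    rfl
  have h3 : Module.finrank k (LinearMap.ker f) =
      Module.finrank k ((P.restrictScalars k ⊓ 𝒜 t : Submodule k A)) := by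
    have h4 : (LinearMap.ker f).map (𝒜 t).subtype = (P.restrictScalars k ⊓ 𝒜 t : Submodule k A) := by
      ext x
      simp only [Submodule.mem_map, LinearMap.mem_ker, Submodule.mem_inf,
        Submodule.restrictScalars_mem]
      constructor
      · rintro ⟨y, hy, rfl⟩
        exact ⟨Ideal.Quotient.eq_zero_iff_mem.1 hy, y.2⟩
      · rintro ⟨hx, hx'⟩
        exact ⟨⟨x, hx'⟩, Ideal.Quotient.eq_zero_iff_mem.2 hx, rfl⟩
    rw [← h4]
    exact (LinearEquiv.finrank_eq (Submodule.equivMapOfInjective _ (𝒜 t).injective_subtype _))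
  rw [h2, h3] at h1
  exact h1

end

end Vale.Agent.P271.Deg
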