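import Vale.Agent.P271.Deg.Quot
import Vale.Agent.P271.Deg.Num
import Vale.Agent.P271.Hilb.Unif
import Vale.Agent.P271.H58.DropGraded

/-!
# P271, block DEG: one step of the chain of primes
-/

set_option linter.all false

open DirectSum

namespace Vale.Agent.P271.Deg

open Vale.Agent.P271.Drop (hilb)

variable {k R : Type*} [Field k] [CommRing R] [Algebra k R] (𝒜 : ℕ → Submodule k R)
  [GradedAlgebra 𝒜]

theorem hilb_eq (P : Ideal R) (t : ℕ) : hilb 𝒜 P t = Module.finrank k (qg 𝒜 P t) := rfl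

/-- minimal primes over homogeneous ideals are homogeneous -/
theorem isHomogeneous_of_mem_minimalPrimes {I P : Ideal R} (hI : I.IsHomogeneous 𝒜)
    (hP : P ∈ I.minimalPrimes) : P.IsHomogeneous 𝒜 := by
  have h1 : (P.homogeneousCore 𝒜).toIdeal.IsPrime := Ideal.IsPrime.homogeneousCore hP.1.1
  have h2 : I ≤ (P.homogeneousCore 𝒜).toIdeal := by
    rw [← hI.toIdeal_homogeneousCore_eq_self]
    exact Ideal.homogeneousCore_mono 𝒜 hP.1.2
  have h3 : P ≤ (P.homogeneousCore 𝒜).toIdeal :=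
    hP.2 ⟨h1, h2⟩ (Ideal.toIdeal_homogeneousCore_le 𝒜 P)
  have h4 : (P.homogeneousCore 𝒜).toIdeal = P :=
    le_antisymm (Ideal.toIdeal_homogeneousCore_le 𝒜 P) h3
  rw [← h4]
  exact (P.homogeneousCore 𝒜).isHomogeneous

theorem isHomogeneous_sup_span {P : Ideal R} (hP : P.IsHomogeneous 𝒜) {f : R} {M : ℕ}
    (hf : f ∈ 𝒜 M) : (P ⊔ Ideal.span {f}).IsHomogeneous 𝒜 := by
  refine hP.sup ?_
  refine Ideal.homogeneous_span 𝒜 _ ?_
  intro x hx
  rw [Set.mem_singleton_iff] at hx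
  subst hx
  exact ⟨M, hf⟩

/-- The data of a relevant homogeneous prime. -/
theorem prime_data [CharZero k] (hfin : (𝒜 1).FG) (hgen : Algebra.adjoin k (𝒜 1 : Set R) = ⊤)
    {P : Ideal R} (hPp : P.IsPrime) (hP : P.IsHomogeneous 𝒜) (hrel : ¬ (𝒜 1 : Set R) ⊆ P) :
    ∃ (d : ℕ) (y : Fin (d + 1) → R) (D : ℕ), (∀ i, y i ∈ 𝒜 1) ∧
      AlgebraicIndependent k (fun i => Ideal.Quotient.mk P (y i)) ∧
      (∀ x : R ⧸ P, IsIntegral
        (Algebra.adjoin k (Set.range (fun i => Ideal.Quotient.mk P (y i)))) x) ∧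
      1 ≤ D ∧ TwoSided d D (hilb 𝒜 P) := by
  letI := qgGraded hP
  obtain ⟨d, y', D, hy', hind, hint, hD, hb⟩ := Hilb.hilbert_bounds' (qg 𝒜 P) (qg_fg hfin)
    (qg_ne_bot hrel) (qg_gen hgen)
  have h1 : ∀ i, ∃ a ∈ 𝒜 1, Ideal.Quotient.mk P a = y' i := fun i => mem_qg.1 (hy' i)
  choose y hy hyy using h1
  have h2 : (fun i => Ideal.Quotient.mk P (y i)) = y' := funext hyy
  refine ⟨d, y, D, hy, ?_, ?_, hD, fun t => ?_⟩
  · rw [h2]; exact hind
  · rw [h2]; exact hint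
  · exact ⟨(hb t).2.1, (hb t).2.2⟩

/-- exactness: `H_Q(t) + H_P(t - M) ≤ H_P(t)` -/
theorem hilb_sub [∀ t, Module.Finite k (𝒜 t)] {P Q : Ideal R} (hPp : P.IsPrime) (hPQ : P ≤ Q)
    {f : R} {M : ℕ} (hf : f ∈ 𝒜 M) (hfP : f ∉ P) (hfQ : f ∈ Q) (t : ℕ) (ht : M ≤ t) :
    hilb 𝒜 Q t + hilb 𝒜 P (t - M) ≤ hilb 𝒜 P t := by
  rw [hilb_eq, hilb_eq, hilb_eq]
  have hfinP : ∀ t, Module.Finite k (qg 𝒜 P t) := fun t => by unfold qg; infer_instance
  let g : (R ⧸ P) →ₗ[k] (R ⧸ Q) := (Ideal.Quotient.factorₐ k hPQ).toLinearMap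
  let φ : qg 𝒜 P t →ₗ[k] (R ⧸ Q) := g.comp (qg 𝒜 P t).subtype
  have h1 := φ.finrank_range_add_finrank_ker
  have h2 : LinearMap.range φ = qg 𝒜 Q t := by
    rw [LinearMap.range_comp, Submodule.range_subtype]
    unfold qg
    rw [← Submodule.map_comp]
    rfl
  rw [h2] at h1
  have h3 : Module.finrank k (qg 𝒜 P (t - M)) ≤ Module.finrank k (LinearMap.ker φ) := by
    have hdom : IsDomain (R ⧸ P) := Ideal.Quotient.isDomain P
    let ψ : qg 𝒜 P (t - M) →ₗ[k] LinearMap.ker φ :=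
      { toFun := fun x => ⟨⟨Ideal.Quotient.mk P f * x.1, by
          have hx := x.2
          obtain ⟨a, ha, hax⟩ := mem_qg.1 hx
          refine mem_qg.2 ⟨f * a, ?_, by rw [map_mul, hax]⟩
          have := SetLike.GradedMul.mul_mem hf ha
          rwa [Nat.add_sub_cancel' ht] at this⟩, by
          rw [LinearMap.mem_ker]
          change (Ideal.Quotient.factorₐ k hPQ) (Ideal.Quotient.mk P f * x.1) = 0
          rw [map_mul]
          have h0 : (Ideal.Quotient.factorₐ k hPQ) (Ideal.Quotient.mk P f) = 0 :=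
            Ideal.Quotient.eq_zero_iff_mem.2 hfQ
          rw [h0, zero_mul]⟩
        map_add' := fun x y => by
          apply Subtype.ext
          apply Subtype.ext
          exact mul_add _ _ _
        map_smul' := fun c x => by
          apply Subtype.ext
          apply Subtype.ext
          exact mul_smul_comm c _ _ }
    refine LinearMap.finrank_le_finrank_of_injective (f := ψ) ?_
    intro x y hxy
    have h4 : Ideal.Quotient.mk P f * x.1 = Ideal.Quotient.mk P f * y.1 :=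
      congrArg (fun z => ((z : LinearMap.ker φ) : qg 𝒜 P t).1) hxy
    have h5 : Ideal.Quotient.mk P f ≠ 0 := fun h => hfP (Ideal.Quotient.eq_zero_iff_mem.1 h)
    exact Subtype.ext (mul_left_cancel₀ h5 h4)
  omega

theorem finite_pieces (hfin : (𝒜 1).FG) (hgen : Algebra.adjoin k (𝒜 1 : Set R) = ⊤)
    [CharZero k] [IsDomain R] (h1 : 𝒜 1 ≠ ⊥) : ∀ t, Module.Finite k (𝒜 t) := by
  obtain ⟨d, D, -, h⟩ := Hilb.hilbert_bounds 𝒜 hfin h1 hgen
  exact fun t => (h t).1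

theorem isNoetherianRing_of_gen (hfin : (𝒜 1).FG) (hgen : Algebra.adjoin k (𝒜 1 : Set R) = ⊤) :
    IsNoetherianRing R := by
  have : Algebra.FiniteType k R := by
    refine ⟨?_⟩
    obtain ⟨s, hs⟩ := hfin
    refine ⟨s, ?_⟩
    rw [← Algebra.adjoin_span, hs, hgen]
  exact Algebra.FiniteType.isNoetherianRing k R

theorem TwoSided.pos {d D : ℕ} {H : ℕ → ℕ} (h : TwoSided d D H) (hD : 1 ≤ D) (t : ℕ) :
    1 ≤ H t := by
  refine le_trans ?_ (h t).1
  have h0 : 0 ∈ (Finset.range D).filter (fun i => i ≤ t) := by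
    simp; omega
  refine le_trans ?_ (Finset.single_le_sum (fun _ _ => Nat.zero_le _) h0)
  exact Nat.choose_pos (by omega)

/-- **One step.** -/
theorem step [CharZero k] [∀ t, Module.Finite k (𝒜 t)] (hfin : (𝒜 1).FG)
    (hgen : Algebra.adjoin k (𝒜 1 : Set R) = ⊤)
    {P Q : Ideal R} (hPp : P.IsPrime) (hP : P.IsHomogeneous 𝒜) {d D : ℕ} (hD : 1 ≤ D)
    (hTS : TwoSided d D (hilb 𝒜 P)) {f : R} {M : ℕ} (hf : f ∈ 𝒜 M) (hfP : f ∉ P)
    (hQ : Q ∈ (P ⊔ Ideal.span {f}).minimalPrimes) (hrel : ¬ (𝒜 1 : Set R) ⊆ Q) :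
    ∃ e D', d = e + 1 ∧ 1 ≤ D' ∧ D' ≤ D * (M + D) ∧ TwoSided e D' (hilb 𝒜 Q) := by
  have hnoeth := isNoetherianRing_of_gen 𝒜 hfin hgen
  have hPQ : P ≤ Q := le_sup_left.trans hQ.1.2
  have hfQ : f ∈ Q := hQ.1.2 (Ideal.mem_sup_right (Ideal.mem_span_singleton_self f))
  have hQp : Q.IsPrime := hQ.1.1
  have hQh : Q.IsHomogeneous 𝒜 :=
    isHomogeneous_of_mem_minimalPrimes 𝒜 (isHomogeneous_sup_span 𝒜 hP hf) hQ
  have hrelP : ¬ (𝒜 1 : Set R) ⊆ P := fun h => hrel (h.trans hPQ)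
  obtain ⟨d₁, y, D₁, hy1, hind, hint, hD₁, hTS₁⟩ := prime_data 𝒜 hfin hgen hPp hP hrelP
  obtain ⟨rfl, rfl⟩ := hTS.unique hTS₁ hD hD₁
  obtain ⟨e, yQ, DQ, -, -, -, hDQ, hTSQ⟩ := prime_data 𝒜 hfin hgen hQp hQh hrel
  have hsub := hilb_sub 𝒜 hPp hPQ hf hfP hfQ
  rcases Nat.eq_zero_or_pos d with rfl | hd
  · exfalso
    have h1 := hTS.drop_zero hsub (M + D) le_rfl
    have h2 := hTSQ.pos hDQ (M + D)
    omega
  · obtain ⟨e', rfl⟩ : ∃ e', d = e' + 1 := ⟨d - 1, by omega⟩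
    have hlow : ∀ t, (t + e').choose e' ≤ hilb 𝒜 Q t := by
      intro t
      have h1 := Drop.drop_graded_rel 𝒜 P y hy1 hind hint hfP hQ t
      have h2 : Fintype.card (Fin (e' + 1 + 1)) - 1 = e' + 1 := by simp
      rw [h2, Nat.multichoose_eq] at h1
      have h3 : (e' + 1 + t - 1).choose t = (t + e').choose e' := by
        rw [show e' + 1 + t - 1 = t + e' by omega, Nat.choose_symm_add]
      rwa [h3] at h1
    obtain ⟨rfl, hle⟩ := hTS.drop hTSQ hDQ hsub hlow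
    exact ⟨e, DQ, rfl, hDQ, hle, hTSQ⟩

end Vale.Agent.P271.Deg
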